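import Mathlib

namespace Vale.Agent.Lib.P031

/-- `V x` is the number of positive integers `v ≤ x` of the form `φ(n)` with `n ≥ 1`. -/
noncomputable def V (x : ℝ) : ℕ :=
  Set.ncard {v : ℕ | (v : ℝ) ≤ x ∧ ∃ n : ℕ, 1 ≤ n ∧ Nat.totient n = v}

/-- `B x` is the number of totient values `v ≤ x` such that `v` is not twice a totient value. -/
noncomputable def B (x : ℝ) : ℕ :=
  Set.ncard {v : ℕ | (v : ℝ) ≤ x ∧ (∃ n : ℕ, 1 ≤ n ∧ Nat.totient n = v) ∧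
    ¬ ∃ w : ℕ, (∃ n : ℕ, 1 ≤ n ∧ Nat.totient n = w) ∧ v = 2 * w}

end Vale.Agent.Lib.P031
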