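import Mathlib
import Vale.Agent.Lib.P031.Defs

open Filter Topology

namespace Vale.Agent.Lib.P031

/-- the set counted by `V` -/
def VSet (x : ℝ) : Set ℕ := {v : ℕ | (v : ℝ) ≤ x ∧ ∃ n : ℕ, 1 ≤ n ∧ Nat.totient n = v}

lemma V_eq (x : ℝ) : V x = (VSet x).ncard := rfl

lemma VSet_subset_Icc (x : ℝ) : VSet x ⊆ ((Finset.Icc 1 ⌊x⌋₊ : Finset ℕ) : Set ℕ) := by
  rintro v ⟨hv, n, hn, rfl⟩
  have hpos : 0 < Nat.totient n := Nat.totient_pos.mpr hn
  simp only [Finset.coe_Icc, Set.mem_Icc]
  refine ⟨hpos, ?_⟩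
  have h0 : (0:ℝ) ≤ x := le_trans (by positivity) hv
  exact Nat.le_floor hv

lemma VSet_finite (x : ℝ) : (VSet x).Finite :=
  (Finset.finite_toSet _).subset (VSet_subset_Icc x)

lemma VSet_mono {x y : ℝ} (h : x ≤ y) : VSet x ⊆ VSet y := by
  rintro v ⟨hv, hn⟩
  exact ⟨hv.trans h, hn⟩

lemma V_mono : Monotone V := fun _ _ h =>
  Set.ncard_le_ncard (VSet_mono h) (VSet_finite _)

lemma V_le_floor (x : ℝ) : V x ≤ ⌊x⌋₊ := by
  have h := Set.ncard_le_ncard (VSet_subset_Icc x) (Finset.finite_toSet _)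
  rw [Set.ncard_coe_finset] at h
  simpa [V_eq] using h

lemma V_le_self {x : ℝ} (hx : 0 ≤ x) : (V x : ℝ) ≤ x :=
  le_trans (by exact_mod_cast V_le_floor x) (Nat.floor_le hx)

/-- one is a totient value -/
lemma one_mem_VSet {x : ℝ} (hx : 1 ≤ x) : 1 ∈ VSet x :=
  ⟨by simpa using hx, 1, le_rfl, by simp⟩

lemma V_pos {x : ℝ} (hx : 1 ≤ x) : 0 < V x :=
  (Set.ncard_pos (VSet_finite x)).mpr ⟨1, one_mem_VSet hx⟩

/-- primes give totient values: `π(n) ≤ V(n)` -/
lemma primeCounting_le_V (n : ℕ) : Nat.primeCounting n ≤ V n := by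
  classical
  have himg : (((Nat.primesLE n).image (fun p => p - 1) : Finset ℕ) : Set ℕ) ⊆ VSet n := by
    intro v hv
    simp only [Finset.coe_image, Set.mem_image, Finset.mem_coe] at hv
    obtain ⟨p, hp, rfl⟩ := hv
    have hpp := Nat.prime_of_mem_primesLE hp
    have hle := Nat.le_of_mem_primesLE hp
    refine ⟨?_, p, hpp.one_le, Nat.totient_prime hpp⟩
    have : p - 1 ≤ n := by omega
    exact_mod_cast this
  have hcard : ((Nat.primesLE n).image (fun p => p - 1)).card = (Nat.primesLE n).card := by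
    apply Finset.card_image_of_injOn
    intro a ha b hb hab
    have ha' := (Nat.prime_of_mem_primesLE (Finset.mem_coe.mp ha)).one_le
    have hb' := (Nat.prime_of_mem_primesLE (Finset.mem_coe.mp hb)).one_le
    have : a - 1 = b - 1 := hab
    omega
  have hpi : Nat.primeCounting n = (Nat.primesLE n).card := by
    simp [Nat.primesLE_card_eq_primeCounting]
  rw [hpi, ← hcard, ← Set.ncard_coe_finset, V_eq]
  exact Set.ncard_le_ncard himg (VSet_finite _)

lemma two_mul_totient_mem {n : ℕ} (hn : 1 ≤ n) :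
    ∃ m : ℕ, 1 ≤ m ∧ Nat.totient m = 2 * Nat.totient n := by
  rcases Nat.even_or_odd n with he | ho
  · refine ⟨2 * n, by omega, ?_⟩
    rw [Nat.totient_mul_of_prime_of_dvd Nat.prime_two he.two_dvd]
  · refine ⟨4 * n, by omega, ?_⟩
    have hc : Nat.Coprime 4 n := by
      have : Nat.Coprime 2 n := Nat.coprime_two_left.mpr ho
      simpa [show (4:ℕ) = 2 ^ 2 by norm_num] using Nat.Coprime.pow_left 2 this
    rw [Nat.totient_mul hc, show Nat.totient 4 = 2 by decide]

lemma doubling_mem {x : ℝ} {v : ℕ} (hv : v ∈ VSet x) : 2 * v ∈ VSet (2 * x) := by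
  obtain ⟨hvx, n, hn, rfl⟩ := hv
  refine ⟨?_, two_mul_totient_mem hn⟩
  push_cast; linarith

/-- `v ↦ 2 v` embeds the totient values in `(x/2, x]` into those in `(x, 2x]`. -/
lemma dyadic_mono (x : ℝ) : V x + V x ≤ V (2 * x) + V (x / 2) := by
  classical
  have hfin := VSet_finite
  -- the image of `VSet x` under doubling together with `VSet x`
  set A := (hfin x).toFinset with hA
  set B := (hfin (2 * x)).toFinset with hB
  set C := (hfin (x / 2)).toFinset with hC
  have hVA : V x = A.card := by rw [V_eq, Set.ncard_eq_toFinset_card _ (hfin x)]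
  have hVB : V (2 * x) = B.card := by rw [V_eq, Set.ncard_eq_toFinset_card _ (hfin _)]
  have hVC : V (x / 2) = C.card := by rw [V_eq, Set.ncard_eq_toFinset_card _ (hfin _)]
  -- the doubles of A minus those lying in A are inside B minus A;
  have hsub : (A \ C).image (fun v => 2 * v) ⊆ B \ A := by
    intro w hw
    simp only [Finset.mem_image, Finset.mem_sdiff] at hw
    obtain ⟨v, ⟨hvA, hvC⟩, rfl⟩ := hw
    simp only [Finset.mem_sdiff]
    have hvA' : v ∈ VSet x := by simpa [hA] using hvA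
    have hvC' : v ∉ VSet (x / 2) := by simpa [hC] using hvC
    refine ⟨by simpa [hB] using doubling_mem hvA', ?_⟩
    intro hwA
    have hwA' : 2 * v ∈ VSet x := by simpa [hA] using hwA
    apply hvC'
    refine ⟨?_, hvA'.2⟩
    have := hwA'.1
    push_cast at this
    linarith
  have hcardimg : ((A \ C).image (fun v => 2 * v)).card = (A \ C).card :=
    Finset.card_image_of_injective _ (fun a b h => by simpa using h)
  have hCA : C ⊆ A := by
    intro v hv
    have hv' : v ∈ VSet (x / 2) := by simpa [hC] using hv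
    have : v ∈ VSet x := by
      refine ⟨?_, hv'.2⟩
      have h1 := hv'.1
      have h0 : (0:ℝ) ≤ (v:ℝ) := by positivity
      linarith
    simpa [hA] using this
  have hAB : A ⊆ B := by
    intro v hv
    have hv' : v ∈ VSet x := by simpa [hA] using hv
    have : v ∈ VSet (2 * x) := by
      refine ⟨?_, hv'.2⟩
      have h1 := hv'.1
      have h0 : (0:ℝ) ≤ (v:ℝ) := by positivity
      linarith
    simpa [hB] using this
  have h1 := Finset.card_le_card hsub
  rw [hcardimg, Finset.card_sdiff_of_subset hCA, Finset.card_sdiff_of_subset hAB] at h1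
  have hCle := Finset.card_le_card hCA
  have hAle := Finset.card_le_card hAB
  rw [hVA, hVB, hVC]
  omega

/-- an interval of length at most one contains at most one integer, so `V` grows by at most one. -/
lemma V_step {x y : ℝ} (hxy : x ≤ y) (hy : y ≤ x + 1) (hx : 0 ≤ x) : V y ≤ V x + 1 := by
  classical
  have hsub : VSet y ⊆ VSet x ∪ {⌊y⌋₊} := by
    rintro v ⟨hv, hn⟩
    by_cases h : (v : ℝ) ≤ x
    · exact Or.inl ⟨h, hn⟩
    · right
      push Not at h
      simp only [Set.mem_singleton_iff]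
      have h0 : (0:ℝ) ≤ y := hx.trans hxy
      have h1 : v ≤ ⌊y⌋₊ := Nat.le_floor hv
      have h2 : (⌊y⌋₊ : ℝ) ≤ y := Nat.floor_le h0
      have h3 : (⌊y⌋₊ : ℝ) < v + 1 := by linarith
      have h4 : ⌊y⌋₊ < v + 1 := by exact_mod_cast h3
      omega
  have h1 := Set.ncard_le_ncard hsub ((VSet_finite x).union (Set.finite_singleton _))
  have h2 := Set.ncard_union_le (VSet x) {⌊y⌋₊}
  rw [Set.ncard_singleton] at h2
  rw [V_eq, V_eq]
  omega

end Vale.Agent.Lib.P031
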