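import Mathlib
import Vale.Agent.Lib.P031.Basic

open Filter Topology

namespace Vale.Agent.Lib.P031

/-- Chebyshev lower bound transported to `V`. -/
lemma eventually_rpow_le_V {s : ℝ} (hs : s < 1) : ∀ᶠ x : ℝ in atTop, x ^ s ≤ (V x : ℝ) := by
  have hδ : 0 < 1 - s := by linarith
  have h1 : ∀ᶠ x : ℝ in atTop, Real.log x ≤ (1/2) * x ^ (1 - s) := by
    have := (isLittleO_log_rpow_atTop hδ).bound (c := 1/2) (by norm_num)
    filter_upwards [this, eventually_ge_atTop 1] with x hx hx1
    have h0 : 0 ≤ Real.log x := Real.log_nonneg hx1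
    rw [Real.norm_of_nonneg h0, Real.norm_of_nonneg (by positivity)] at hx
    exact hx
  have hlog2 : (0.69 : ℝ) < Real.log 2 := by
    have := Real.log_two_gt_d9
    linarith
  have h2 : ∀ᶠ x : ℝ in atTop, Real.log x ≤ (1/100) * x := by
    have := Real.isLittleO_log_id_atTop.bound (c := 1/100) (by norm_num)
    filter_upwards [this, eventually_ge_atTop 1] with x hx hx1
    have h0 : 0 ≤ Real.log x := Real.log_nonneg hx1
    rw [Real.norm_of_nonneg h0] at hx
    simpa [abs_of_pos (show (0:ℝ) < x by linarith)] using hx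
  filter_upwards [h1, h2, eventually_ge_atTop 100] with x hx1 hx2 hx3
  have hxpos : 0 < x := by linarith
  have hlogpos : 0 < Real.log x := Real.log_pos (by linarith)
  have hpi := Chebyshev.pi_ge' (x := x) (by linarith)
  have hV1 : (Nat.primeCounting ⌊x⌋₊ : ℝ) ≤ V x := by
    have h1 := primeCounting_le_V ⌊x⌋₊
    have h2 := V_mono (Nat.floor_le hxpos.le)
    have : Nat.primeCounting ⌊x⌋₊ ≤ V x := h1.trans h2
    exact_mod_cast this
  refine le_trans ?_ (hpi.trans hV1)
  rw [le_div_iff₀ hlogpos]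
  have hlog3 : Real.log (x + 2) ≤ Real.log 2 + Real.log x := by
    rw [← Real.log_mul (by norm_num) hxpos.ne']
    exact Real.log_le_log (by linarith) (by linarith)
  have hrp : x ^ s * x ^ (1 - s) = x := by
    rw [← Real.rpow_add hxpos]
    simp
  have hxs : 0 < x ^ s := by positivity
  have hbound : x ^ s * Real.log x ≤ (1/2) * x := by
    calc x ^ s * Real.log x ≤ x ^ s * ((1/2) * x ^ (1 - s)) :=
          mul_le_mul_of_nonneg_left hx1 hxs.le
      _ = (1/2) * (x ^ s * x ^ (1 - s)) := by ring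
      _ = (1/2) * x := by rw [hrp]
  have hlin : (1/2) * x ≤ (x - 1) * Real.log 2 - Real.log (x + 2) := by
    have hl2 : Real.log 2 < 1 := by
      have := Real.log_two_lt_d9
      linarith
    nlinarith
  linarith

lemma pow_mul_ge_one {c : ℝ} (hc : 1 < c) {x0 : ℝ} (hx0 : 1 ≤ x0) (m : ℕ) : x0 ≤ c ^ m * x0 := by
  have : (1:ℝ) ≤ c ^ m := one_le_pow₀ hc.le
  nlinarith

/-- If `V(cx)/V(x)` were eventually below `a < c`, then `V` would grow too slowly. -/
lemma frequently_ge {c a : ℝ} (hc : 1 < c) (ha : a < c) :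
    ∃ᶠ x : ℝ in atTop, a * V x ≤ V (c * x) := by
  by_contra hcontra
  rw [not_frequently] at hcontra
  have hcontra' : ∀ᶠ x : ℝ in atTop, (V (c * x) : ℝ) < a * V x := by
    filter_upwards [hcontra] with x hx
    exact not_le.mp hx
  obtain ⟨x0', hx0'⟩ := eventually_atTop.mp hcontra'
  set x0 := max x0' 1 with hx0def
  have hx01 : 1 ≤ x0 := le_max_right _ _
  have hx0x : x0' ≤ x0 := le_max_left _ _
  have hx0pos : 0 < x0 := by linarith
  have hcpos : 0 < c := by linarith
  have hstep : ∀ x, x0 ≤ x → (V (c * x) : ℝ) < a * V x := fun x hx => hx0' x (hx0x.trans hx)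
  have hapos : 0 < a := by
    by_contra hneg
    push Not at hneg
    have h1 := hstep x0 le_rfl
    have h2 : (0:ℝ) ≤ V (c * x0) := by positivity
    have h3 : (0:ℝ) < V x0 := by exact_mod_cast V_pos hx01
    nlinarith
  -- iterate
  have hiter : ∀ m : ℕ, (V (c ^ m * x0) : ℝ) ≤ a ^ m * V x0 := by
    intro m
    induction m with
    | zero => simp
    | succ m ih =>
      have hge : x0 ≤ c ^ m * x0 := pow_mul_ge_one hc hx01 m
      have h1 := hstep _ hge
      have h2 : c * (c ^ m * x0) = c ^ (m + 1) * x0 := by ring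
      rw [h2] at h1
      calc (V (c ^ (m + 1) * x0) : ℝ) ≤ a * V (c ^ m * x0) := h1.le
        _ ≤ a * (a ^ m * V x0) := mul_le_mul_of_nonneg_left ih hapos.le
        _ = a ^ (m + 1) * V x0 := by ring
  -- choose an exponent `s < 1` with `a < c ^ s`
  have hcont : Tendsto (fun s : ℝ => c ^ s) (𝓝 1) (𝓝 (c ^ (1:ℝ))) :=
    (Real.continuousAt_const_rpow (by linarith)).tendsto
  rw [Real.rpow_one] at hcont
  have hev := hcont.eventually (lt_mem_nhds ha)
  obtain ⟨ε, hε, hball⟩ := Metric.eventually_nhds_iff.mp hev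
  set s := 1 - ε / 2 with hsdef
  have hs1 : s < 1 := by simp only [hsdef]; linarith
  have has : a < c ^ s := by
    apply hball
    rw [Real.dist_eq, hsdef]
    have : |1 - ε / 2 - 1| = ε / 2 := by
      rw [show 1 - ε / 2 - 1 = -(ε / 2) by ring, abs_neg, abs_of_pos (by linarith)]
    rw [this]; linarith
  -- the lower bound for `V`
  obtain ⟨x1, hx1⟩ := eventually_atTop.mp (eventually_rpow_le_V hs1)
  -- the sequence `c^m x0` tends to infinity
  have htends : Tendsto (fun m : ℕ => (c ^ s / a) ^ m) atTop atTop :=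
    tendsto_pow_atTop_atTop_of_one_lt (by rw [one_lt_div hapos]; exact has)
  have htends2 : Tendsto (fun m : ℕ => c ^ m * x0) atTop atTop :=
    (tendsto_pow_atTop_atTop_of_one_lt hc).atTop_mul_const hx0pos
  have hev1 := htends2.eventually (eventually_ge_atTop x1)
  have hev2 := htends.eventually (eventually_gt_atTop ((V x0 : ℝ) / x0 ^ s))
  obtain ⟨m, hm1, hm2⟩ := (hev1.and hev2).exists
  have h1 := hx1 _ hm1
  have h2 := hiter m
  have hcm : 0 < c ^ m := by positivity
  have hrp : (c ^ m * x0) ^ s = (c ^ s) ^ m * x0 ^ s := by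
    rw [Real.mul_rpow hcm.le hx0pos.le, ← Real.rpow_natCast c m, ← Real.rpow_mul hcpos.le,
      mul_comm (m:ℝ) s, Real.rpow_mul hcpos.le, Real.rpow_natCast]
  rw [hrp] at h1
  have hx0s : 0 < x0 ^ s := by positivity
  have hamp : 0 < a ^ m := by positivity
  have hdiv : (c ^ s / a) ^ m = (c ^ s) ^ m / a ^ m := by rw [div_pow]
  rw [hdiv, div_lt_div_iff₀ hx0s hamp] at hm2
  linarith

/-- If `V(cx)/V(x)` were eventually above `a > c`, then `V` would grow too fast. -/
lemma frequently_le {c a : ℝ} (hc : 1 < c) (ha : c < a) :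
    ∃ᶠ x : ℝ in atTop, (V (c * x) : ℝ) ≤ a * V x := by
  by_contra hcontra
  rw [not_frequently] at hcontra
  have hcontra' : ∀ᶠ x : ℝ in atTop, a * V x < (V (c * x) : ℝ) := by
    filter_upwards [hcontra] with x hx
    exact not_le.mp hx
  obtain ⟨x0', hx0'⟩ := eventually_atTop.mp hcontra'
  set x0 := max x0' 1 with hx0def
  have hx01 : 1 ≤ x0 := le_max_right _ _
  have hx0x : x0' ≤ x0 := le_max_left _ _
  have hx0pos : 0 < x0 := by linarith
  have hcpos : 0 < c := by linarith
  have hapos : 0 < a := by linarith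
  have hstep : ∀ x, x0 ≤ x → a * V x < (V (c * x) : ℝ) := fun x hx => hx0' x (hx0x.trans hx)
  have hiter : ∀ m : ℕ, a ^ m * V x0 ≤ (V (c ^ m * x0) : ℝ) := by
    intro m
    induction m with
    | zero => simp
    | succ m ih =>
      have hge : x0 ≤ c ^ m * x0 := pow_mul_ge_one hc hx01 m
      have h1 := hstep _ hge
      have h2 : c * (c ^ m * x0) = c ^ (m + 1) * x0 := by ring
      rw [h2] at h1
      calc a ^ (m + 1) * (V x0 : ℝ) = a * (a ^ m * V x0) := by ring
        _ ≤ a * V (c ^ m * x0) := mul_le_mul_of_nonneg_left ih hapos.le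
        _ ≤ (V (c ^ (m + 1) * x0) : ℝ) := h1.le
  have htends : Tendsto (fun m : ℕ => (a / c) ^ m) atTop atTop :=
    tendsto_pow_atTop_atTop_of_one_lt (by rw [one_lt_div hcpos]; exact ha)
  obtain ⟨m, hm⟩ := (htends.eventually (eventually_gt_atTop x0)).exists
  have h1 := hiter m
  have h2 : (V (c ^ m * x0) : ℝ) ≤ c ^ m * x0 := V_le_self (by positivity)
  have h3 : (1:ℝ) ≤ V x0 := by exact_mod_cast V_pos hx01
  have hcm : 0 < c ^ m := by positivity
  have ham : 0 < a ^ m := by positivity
  rw [div_pow, lt_div_iff₀ hcm] at hm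
  nlinarith

/-- A sequence that starts above `l`, ends below `u`, and never drops by more than `u - l`... -/
lemma discrete_ivt (a : ℕ → ℝ) (J : ℕ) {l u d : ℝ} (h0 : l ≤ a 0) (hJ : a J ≤ u)
    (hstep : ∀ j, j < J → a j - d ≤ a (j + 1)) :
    ∃ j, j ≤ J ∧ min l (u - d) ≤ a j ∧ a j ≤ u := by
  classical
  have hex : ∃ j, a j ≤ u ∧ j ≤ J := ⟨J, hJ, le_rfl⟩
  let j := Nat.find hex
  have hj : a j ≤ u ∧ j ≤ J := Nat.find_spec hex
  refine ⟨j, hj.2, ?_, hj.1⟩
  rcases Nat.eq_zero_or_pos j with h | h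
  · rw [h]
    exact le_trans (min_le_left _ _) h0
  · have hmin := Nat.find_min hex (m := j - 1) (by omega)
    have hjJ : j - 1 < J := by have := hj.2; omega
    have hlt : u < a (j - 1) := by
      by_contra hcon
      exact hmin ⟨not_lt.mp hcon, by omega⟩
    have hs := hstep (j - 1) hjJ
    have hj1 : j - 1 + 1 = j := by omega
    rw [hj1] at hs
    exact le_trans (min_le_right _ _) (by linarith)

/-- The main soft fact: `V(cx)/V(x)` is close to `c` for arbitrarily large `x`. -/
lemma frequently_close {c ε : ℝ} (hc : 1 < c) (hε : 0 < ε) :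
    ∃ᶠ x : ℝ in atTop, |(V (c * x) : ℝ) / V x - c| < ε := by
  rw [Filter.frequently_atTop]
  intro X
  -- threshold making the downward steps small
  have hcpos : 0 < c := by linarith
  have hpow : ∀ᶠ y : ℝ in atTop, c * y ^ (-(1/2) : ℝ) ≤ ε / 2 := by
    have h := tendsto_rpow_neg_atTop (y := (1/2 : ℝ)) (by norm_num)
    have h2 : Tendsto (fun y : ℝ => c * y ^ (-(1/2) : ℝ)) atTop (𝓝 (c * 0)) :=
      h.const_mul c
    rw [mul_zero] at h2
    exact (h2.eventually (gt_mem_nhds (by linarith : (0:ℝ) < ε / 2))).mono (fun y hy => hy.le)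
  obtain ⟨X1, hX1⟩ := eventually_atTop.mp hpow
  obtain ⟨X2, hX2⟩ := eventually_atTop.mp (eventually_rpow_le_V (s := 3/4) (by norm_num))
  set X0 := max (max X (max X1 X2)) 1 with hX0def
  have hX01 : 1 ≤ X0 := le_max_right _ _
  have hX0X : X ≤ X0 := (le_max_left _ _).trans' (le_max_left _ _)
  have hX0X1 : X1 ≤ X0 := ((le_max_left _ _).trans (le_max_right _ _)).trans (le_max_left _ _)
  have hX0X2 : X2 ≤ X0 := ((le_max_right _ _).trans (le_max_right _ _)).trans (le_max_left _ _)
  -- step estimate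
  have hstep : ∀ y t : ℝ, X0 ≤ y → 0 ≤ t → t ≤ 1 →
      (V (c * y) : ℝ) / V y - ε / 2 ≤ (V (c * (y + t)) : ℝ) / V (y + t) := by
    intro y t hy ht0 ht1
    have hy1 : 1 ≤ y := hX01.trans hy
    have hypos : 0 < y := by linarith
    have hD : (0:ℝ) < V y := by exact_mod_cast V_pos hy1
    have hD' : (0:ℝ) < V (y + t) := by exact_mod_cast V_pos (by linarith)
    have hN : (V (c * y) : ℝ) ≤ V (c * (y + t)) := by
      have := V_mono (show c * y ≤ c * (y + t) by nlinarith)
      exact_mod_cast this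
    have hD1 : (V (y + t) : ℝ) ≤ V y + 1 := by
      have := V_step (x := y) (y := y + t) (by linarith) (by linarith) hypos.le
      exact_mod_cast this
    have hNle : (V (c * y) : ℝ) ≤ c * y := V_le_self (by positivity)
    have hlow : y ^ (3/4 : ℝ) ≤ V y := hX2 y (hX0X2.trans hy)
    have hsmall : c * y ^ (-(1/2) : ℝ) ≤ ε / 2 := hX1 y (hX0X1.trans hy)
    -- `V(cy) / V(y)^2 ≤ ε/2`
    have hsq : y ^ (3/2 : ℝ) ≤ (V y : ℝ) ^ 2 := by
      have h0 : 0 ≤ y ^ (3/4 : ℝ) := by positivity
      have h1 : (y ^ (3/4 : ℝ)) ^ 2 ≤ (V y : ℝ) ^ 2 := pow_le_pow_left₀ h0 hlow 2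
      have h2 : (y ^ (3/4 : ℝ)) ^ 2 = y ^ (3/2 : ℝ) := by
        rw [← Real.rpow_natCast, ← Real.rpow_mul hypos.le]
        norm_num
      rwa [h2] at h1
    have hratio : (V (c * y) : ℝ) ≤ (ε / 2) * (V y : ℝ) ^ 2 := by
      have h3 : y * y ^ (-(1/2) : ℝ) * y ^ (3/2 : ℝ) = y * y := by
        rw [mul_assoc, ← Real.rpow_add hypos]
        norm_num
      have h4 : c * y = (c * y ^ (-(1/2) : ℝ)) * y ^ (3/2 : ℝ) := by
        have : y ^ (-(1/2) : ℝ) * y ^ (3/2 : ℝ) = y := by
          rw [← Real.rpow_add hypos]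
          norm_num
        calc c * y = c * (y ^ (-(1/2) : ℝ) * y ^ (3/2 : ℝ)) := by rw [this]
          _ = _ := by ring
      calc (V (c * y) : ℝ) ≤ c * y := hNle
        _ = (c * y ^ (-(1/2) : ℝ)) * y ^ (3/2 : ℝ) := h4
        _ ≤ (ε / 2) * y ^ (3/2 : ℝ) := by
            apply mul_le_mul_of_nonneg_right hsmall (by positivity)
        _ ≤ (ε / 2) * (V y : ℝ) ^ 2 := by
            apply mul_le_mul_of_nonneg_left hsq (by linarith)
    -- combine
    have hNnn : (0:ℝ) ≤ V (c * y) := by positivity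
    have h5 : (V (c * y) : ℝ) / (V y + 1) ≤ (V (c * (y + t)) : ℝ) / V (y + t) := by
      apply div_le_div₀ (by positivity) hN hD' hD1
    have h6 : (V (c * y) : ℝ) / V y - ε / 2 ≤ (V (c * y) : ℝ) / (V y + 1) := by
      have hD2 : (0:ℝ) < V y + 1 := by linarith
      rw [div_sub' hD.ne', div_le_div_iff₀ hD hD2]
      have : (V (c * y) : ℝ) * (V y : ℝ) ≤ (V (c * y) : ℝ) * (V y + 1) := by nlinarith
      nlinarith
    linarith
  -- pick the two endpoints
  have hA := (frequently_ge hc (show c - ε / 2 < c by linarith))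
  obtain ⟨x1, hx1X, hx1⟩ := Filter.frequently_atTop.mp hA X0
  have hB := (frequently_le hc (show c < c + ε / 2 by linarith))
  obtain ⟨x2, hx2X, hx2⟩ := Filter.frequently_atTop.mp hB x1
  have hx1one : 1 ≤ x1 := hX01.trans hx1X
  have hx2one : 1 ≤ x2 := hx1one.trans hx2X
  have hD1 : (0:ℝ) < V x1 := by exact_mod_cast V_pos hx1one
  have hD2 : (0:ℝ) < V x2 := by exact_mod_cast V_pos hx2one
  -- the grid
  set J : ℕ := ⌈x2 - x1⌉₊ + 1 with hJ
  have hJpos : (0:ℝ) < J := by rw [hJ]; positivity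
  set t : ℝ := (x2 - x1) / J with ht
  have ht0 : 0 ≤ t := div_nonneg (by linarith) hJpos.le
  have ht1 : t ≤ 1 := by
    rw [ht, div_le_one hJpos, hJ]
    push_cast
    have := Nat.le_ceil (x2 - x1)
    linarith
  have hJt : (J : ℝ) * t = x2 - x1 := by
    rw [ht]; field_simp
  let y : ℕ → ℝ := fun j => x1 + j * t
  let a : ℕ → ℝ := fun j => (V (c * y j) : ℝ) / V (y j)
  have hy0 : y 0 = x1 := by simp [y]
  have hyJ : y J = x2 := by simp only [y]; rw [hJt]; ring
  have hyge : ∀ j, X0 ≤ y j := by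
    intro j
    have : (0:ℝ) ≤ j * t := by positivity
    simp only [y]; linarith
  have hstepa : ∀ j, j < J → a j - ε / 2 ≤ a (j + 1) := by
    intro j _
    have h := hstep (y j) t (hyge j) ht0 ht1
    have hy' : y (j + 1) = y j + t := by simp only [y]; push_cast; ring
    simp only [a]
    rw [hy']
    exact h
  have ha0 : c - ε / 2 ≤ a 0 := by
    simp only [a]; rw [hy0, le_div_iff₀ hD1]; exact hx1
  have haJ : a J ≤ c + ε / 2 := by
    simp only [a]; rw [hyJ, div_le_iff₀ hD2]; exact hx2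
  obtain ⟨j, _, hj1, hj2⟩ := discrete_ivt a J ha0 haJ hstepa
  refine ⟨y j, hX0X.trans (hyge j), ?_⟩
  change |a j - c| < ε
  have hmin : min (c - ε / 2) (c + ε / 2 - ε / 2) = c - ε / 2 := by
    apply min_eq_left; linarith
  rw [hmin] at hj1
  rw [abs_lt]
  constructor <;> linarith

/-- the ratio tends to `c` along a sequence tending to infinity. -/
theorem exists_sequence {c : ℝ} (hc : 1 < c) :
    ∃ u : ℕ → ℝ, Tendsto u atTop atTop ∧
      Tendsto (fun j => (V (c * u j) : ℝ) / V (u j)) atTop (𝓝 c) := by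
  have h : ∀ j : ℕ, ∃ x : ℝ, (j : ℝ) ≤ x ∧ |(V (c * x) : ℝ) / V x - c| < 1 / ((j : ℝ) + 1) := by
    intro j
    have := frequently_close hc (show (0:ℝ) < 1 / ((j : ℝ) + 1) by positivity)
    obtain ⟨x, hx1, hx2⟩ := Filter.frequently_atTop.mp this (j : ℝ)
    exact ⟨x, hx1, hx2⟩
  choose u hu1 hu2 using h
  refine ⟨u, tendsto_atTop_mono hu1 tendsto_natCast_atTop_atTop, ?_⟩
  rw [tendsto_iff_dist_tendsto_zero]
  refine squeeze_zero (fun _ => dist_nonneg) (fun j => ?_) tendsto_one_div_add_atTop_nhds_zero_nat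
  rw [Real.dist_eq]
  exact (hu2 j).le

/-- the only possible limit of the ratio is `c`. -/
theorem limit_eq {c L : ℝ} (hc : 1 < c)
    (hL : Tendsto (fun x : ℝ => (V (c * x) : ℝ) / V x) atTop (𝓝 L)) : L = c := by
  obtain ⟨u, hu, hlim⟩ := exists_sequence hc
  exact tendsto_nhds_unique (hL.comp hu) hlim

/-- the subgroup of logarithms of scales at which Q2 holds. -/
def goodLogs : AddSubgroup ℝ where
  carrier := {t : ℝ | Tendsto (fun x : ℝ => (V (Real.exp t * x) : ℝ) / V x) atTop (𝓝 (Real.exp t))}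
  zero_mem' := by
    simp only [Set.mem_ofPred_eq, Real.exp_zero, one_mul]
    refine tendsto_const_nhds.congr' ?_
    filter_upwards [eventually_ge_atTop (1:ℝ)] with x hx
    have : (V x : ℝ) ≠ 0 := by exact_mod_cast (V_pos hx).ne'
    field_simp
  add_mem' := by
    intro s t hs ht
    simp only [Set.mem_ofPred_eq] at hs ht ⊢
    have htt : Tendsto (fun x : ℝ => Real.exp t * x) atTop atTop :=
      tendsto_id.const_mul_atTop (Real.exp_pos t)
    have h1 := (hs.comp htt).mul ht
    rw [Real.exp_add]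
    refine h1.congr' ?_
    filter_upwards [eventually_ge_atTop (1:ℝ), htt.eventually (eventually_ge_atTop (1:ℝ))]
      with x hx hx2
    have h2 : (V (Real.exp t * x) : ℝ) ≠ 0 := by exact_mod_cast (V_pos hx2).ne'
    simp only [Function.comp]
    rw [div_mul_div_cancel₀ h2, ← mul_assoc]
  neg_mem' := by
    intro t ht
    simp only [Set.mem_ofPred_eq] at ht ⊢
    have htt : Tendsto (fun x : ℝ => Real.exp (-t) * x) atTop atTop :=
      tendsto_id.const_mul_atTop (Real.exp_pos _)
    have h1 := (ht.comp htt).inv₀ (Real.exp_pos t).ne'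
    rw [Real.exp_neg]
    refine h1.congr' ?_
    filter_upwards with x
    simp only [Function.comp, inv_div, Real.exp_neg]
    rw [← mul_assoc, mul_inv_cancel₀ (Real.exp_pos t).ne', one_mul]

/-- if Q2 holds at two multiplicatively independent scales, it holds at every scale. -/
theorem all_of_two {a b : ℝ} (ha : 1 < a) (hb : 1 < b)
    (hab : ∀ m n : ℕ, 0 < m → a ^ m ≠ b ^ n)
    (hQa : Tendsto (fun x : ℝ => (V (a * x) : ℝ) / V x) atTop (𝓝 a))
    (hQb : Tendsto (fun x : ℝ => (V (b * x) : ℝ) / V x) atTop (𝓝 b))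
    {c : ℝ} (hc : 1 < c) :
    Tendsto (fun x : ℝ => (V (c * x) : ℝ) / V x) atTop (𝓝 c) := by
  have hapos : 0 < a := by linarith
  have hbpos : 0 < b := by linarith
  have hcpos : 0 < c := by linarith
  have hla : 0 < Real.log a := Real.log_pos ha
  have hlb : 0 < Real.log b := Real.log_pos hb
  -- irrationality of the ratio of logarithms
  have hirr : Irrational (Real.log a / Real.log b) := by
    rintro ⟨r, hr⟩
    have hrpos : (0:ℝ) < r := by rw [hr]; positivity
    have hrposQ : 0 < r := by exact_mod_cast hrpos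
    have hnum : 0 < r.num := Rat.num_pos.mpr hrposQ
    have hden : 0 < r.den := r.den_pos
    have hrr : (r : ℝ) = (r.num : ℝ) / (r.den : ℝ) := by
      exact_mod_cast (Rat.num_div_den r).symm
    have hnn : (r.num : ℝ) = (r.num.toNat : ℝ) := by
      have := Int.toNat_of_nonneg hnum.le
      exact_mod_cast this.symm
    have h1 : (r.den : ℝ) * Real.log a = (r.num.toNat : ℝ) * Real.log b := by
      rw [hrr, hnn] at hr
      have hd : (r.den : ℝ) ≠ 0 := by exact_mod_cast hden.ne'
      field_simp at hr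
      linarith
    apply hab r.den r.num.toNat hden
    have h2 : Real.log (a ^ r.den) = Real.log (b ^ r.num.toNat) := by
      rw [Real.log_pow, Real.log_pow]; exact h1
    exact Real.log_injOn_pos (Set.mem_Ioi.mpr (by positivity)) (Set.mem_Ioi.mpr (by positivity)) h2
  have hdense : Dense (AddSubgroup.closure {Real.log a, Real.log b} : Set ℝ) :=
    dense_addSubgroupClosure_pair_iff.mpr hirr
  have hsub : AddSubgroup.closure {Real.log a, Real.log b} ≤ goodLogs := by
    rw [AddSubgroup.closure_le]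
    intro t ht
    rcases ht with rfl | rfl
    · change Tendsto _ _ _
      rw [Real.exp_log hapos]
      exact hQa
    · change Tendsto _ _ _
      rw [Real.exp_log hbpos]
      exact hQb
  have hgood : Dense (goodLogs : Set ℝ) := hdense.mono hsub
  have hmemgood : ∀ t : ℝ, t ∈ goodLogs →
      Tendsto (fun x : ℝ => (V (Real.exp t * x) : ℝ) / V x) atTop (𝓝 (Real.exp t)) :=
    fun t ht => ht
  rw [tendsto_order]
  constructor
  · intro l hl
    -- find a good scale strictly between `max l (c/2)` and `c`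
    have hmaxpos : 0 < max l (c / 2) := lt_max_of_lt_right (by linarith)
    have hlog : Real.log (max l (c / 2)) < Real.log c := by
      apply Real.log_lt_log hmaxpos
      apply max_lt <;> linarith
    obtain ⟨t, htg, ht1, ht2⟩ :=
      hgood.exists_mem_open isOpen_Ioo (Set.nonempty_Ioo.mpr hlog)
    have hexp1 : max l (c / 2) < Real.exp t := by
      rwa [Real.log_lt_iff_lt_exp hmaxpos] at ht1
    have hexp2 : Real.exp t < c := by
      rwa [Real.lt_log_iff_exp_lt hcpos] at ht2
    have hlt : l < Real.exp t := lt_of_le_of_lt (le_max_left _ _) hexp1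
    have hev := (hmemgood t htg).eventually (lt_mem_nhds hlt)
    filter_upwards [hev, eventually_ge_atTop (1:ℝ)] with x hx hx1
    have hxpos : 0 < x := by linarith
    have hD : (0:ℝ) < V x := by exact_mod_cast V_pos hx1
    have hmono : (V (Real.exp t * x) : ℝ) ≤ V (c * x) := by
      have := V_mono (show Real.exp t * x ≤ c * x by nlinarith)
      exact_mod_cast this
    exact lt_of_lt_of_le hx (div_le_div_of_nonneg_right hmono hD.le)
  · intro u hu
    have hupos : 0 < u := by linarith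
    have hlog : Real.log c < Real.log u := Real.log_lt_log hcpos hu
    obtain ⟨t, htg, ht1, ht2⟩ :=
      hgood.exists_mem_open isOpen_Ioo (Set.nonempty_Ioo.mpr hlog)
    have hexp1 : c < Real.exp t := by
      rwa [Real.log_lt_iff_lt_exp hcpos] at ht1
    have hexp2 : Real.exp t < u := by
      rwa [Real.lt_log_iff_exp_lt hupos] at ht2
    have hev := (hmemgood t htg).eventually (gt_mem_nhds hexp2)
    filter_upwards [hev, eventually_ge_atTop (1:ℝ)] with x hx hx1
    have hxpos : 0 < x := by linarith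
    have hD : (0:ℝ) < V x := by exact_mod_cast V_pos hx1
    have hmono : (V (c * x) : ℝ) ≤ V (Real.exp t * x) := by
      have := V_mono (show c * x ≤ Real.exp t * x by nlinarith)
      exact_mod_cast this
    exact lt_of_le_of_lt (div_le_div_of_nonneg_right hmono hD.le) hx

/-- Q2 at `2` and `3` implies Q2 at every scale. -/
theorem all_of_two_three
    (h2 : Tendsto (fun x : ℝ => (V (2 * x) : ℝ) / V x) atTop (𝓝 2))
    (h3 : Tendsto (fun x : ℝ => (V (3 * x) : ℝ) / V x) atTop (𝓝 3))
    {c : ℝ} (hc : 1 < c) :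
    Tendsto (fun x : ℝ => (V (c * x) : ℝ) / V x) atTop (𝓝 c) := by
  refine all_of_two (by norm_num) (by norm_num) ?_ h2 h3 hc
  intro m n hm h
  have h' : 2 ^ m = 3 ^ n := by exact_mod_cast h
  have hodd : Odd (3 ^ n) := Odd.pow (by decide)
  have heven : Even (2 ^ m) := (Nat.even_pow.mpr ⟨by decide, hm.ne'⟩)
  rw [h'] at heven
  exact (Nat.not_even_iff_odd.mpr hodd) heven

/-- every totient value up to `x` is either counted by `B` or is twice a totient value up to `x/2`. -/
lemma V_eq_B_add (x : ℝ) : V x = B x + V (x / 2) := by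
  classical
  set S : Set ℕ := {v : ℕ | (v : ℝ) ≤ x ∧ (∃ n : ℕ, 1 ≤ n ∧ Nat.totient n = v) ∧
    ¬ ∃ w : ℕ, (∃ n : ℕ, 1 ≤ n ∧ Nat.totient n = w) ∧ v = 2 * w} with hS
  have hB : B x = S.ncard := rfl
  have hSsub : S ⊆ VSet x := fun v hv => ⟨hv.1, hv.2.1⟩
  have hSfin : S.Finite := (VSet_finite x).subset hSsub
  set T : Set ℕ := (fun w => 2 * w) '' VSet (x / 2) with hT
  have hTcard : T.ncard = V (x / 2) := by
    rw [hT, V_eq]
    exact Set.ncard_image_of_injective _ (fun a b h => by simpa using h)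
  have hTfin : T.Finite := (VSet_finite _).image _
  have hdisj : Disjoint S T := by
    rw [Set.disjoint_left]
    rintro v hvS ⟨w, hw, rfl⟩
    exact hvS.2.2 ⟨w, hw.2, rfl⟩
  have hunion : VSet x = S ∪ T := by
    ext v
    constructor
    · intro hv
      by_cases h : ∃ w : ℕ, (∃ n : ℕ, 1 ≤ n ∧ Nat.totient n = w) ∧ v = 2 * w
      · right
        obtain ⟨w, hw, rfl⟩ := h
        refine ⟨w, ⟨?_, hw⟩, rfl⟩
        have := hv.1
        push_cast at this
        linarith
      · left
        exact ⟨hv.1, hv.2, h⟩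
    · rintro (hv | ⟨w, hw, rfl⟩)
      · exact hSsub hv
      · have := doubling_mem hw
        rwa [show 2 * (x / 2) = x by ring] at this
  rw [V_eq, hunion, Set.ncard_union_eq hdisj hSfin hTfin, hB, hTcard]

/-- Q2 at `2` says that exactly half of the totient values are not twice a totient value. -/
theorem two_iff_half :
    Tendsto (fun x : ℝ => (V (2 * x) : ℝ) / V x) atTop (𝓝 2) ↔
      Tendsto (fun x : ℝ => (B x : ℝ) / V x) atTop (𝓝 (1 / 2)) := by
  have hhalf : Tendsto (fun x : ℝ => x / 2) atTop atTop :=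
    tendsto_id.atTop_div_const (by norm_num)
  have hdouble : Tendsto (fun x : ℝ => 2 * x) atTop atTop :=
    tendsto_id.const_mul_atTop (by norm_num)
  have hkey : ∀ᶠ x : ℝ in atTop,
      (B x : ℝ) / V x = 1 - ((V (2 * (x / 2)) : ℝ) / V (x / 2))⁻¹ := by
    filter_upwards [eventually_ge_atTop (2:ℝ)] with x hx
    have h1 : (0:ℝ) < V x := by exact_mod_cast V_pos (by linarith)
    have h2 : (0:ℝ) < V (x / 2) := by exact_mod_cast V_pos (by linarith)
    rw [show 2 * (x / 2) = x by ring, inv_div]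
    have h3 : (V x : ℝ) = B x + V (x / 2) := by exact_mod_cast V_eq_B_add x
    field_simp
    linarith
  constructor
  · intro h
    have h1 := (h.comp hhalf).inv₀ (by norm_num : (2:ℝ) ≠ 0)
    have h2 := (tendsto_const_nhds (x := (1:ℝ))).sub h1
    have h3 : (1:ℝ) - 2⁻¹ = 1 / 2 := by norm_num
    rw [h3] at h2
    refine h2.congr' ?_
    filter_upwards [hkey] with x hx
    rw [hx]
    rfl
  · intro h
    have hkey2 : ∀ᶠ x : ℝ in atTop,
        (V (2 * x) : ℝ) / V x = (1 - (B (2 * x) : ℝ) / V (2 * x))⁻¹ := by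
      filter_upwards [hdouble.eventually hkey] with x hx
      rw [hx]
      simp [show 2 * x / 2 = x by ring]
    have h1 := (tendsto_const_nhds (x := (1:ℝ))).sub (h.comp hdouble)
    have h2 := h1.inv₀ (by norm_num)
    have h3 : ((1:ℝ) - 1 / 2)⁻¹ = 2 := by norm_num
    rw [h3] at h2
    refine h2.congr' ?_
    filter_upwards [hkey2] with x hx
    rw [hx]
    rfl

end Vale.Agent.Lib.P031
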